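import Vale.Agent.P354L.Sub

/-!
P354 (helper5): from boxes to lines (MEAS).
-/

open scoped ContDiff
open MeasureTheory Set Filter Topology

namespace Vale.Agent.P354LM

open Vale.Agent.P354n (R4 cu cv du dv)
open Vale.Agent.P354L

variable {K p0 q0 : ℝ} {Φ Y : R4 → ℝ × ℝ} {k P : ℝ → ℝ}

theorem der_u (h : ContDiff ℝ ∞ Φ) (u v : ℝ) (y : ℝ × ℝ) :
    HasDerivAt (fun s => Φ (s, v, y)) (D du Φ (u, v, y)) u :=
  (dif h.contDiffAt).hasFDerivAt.comp_hasDerivAt u
    ((hasDerivAt_id u).prodMk (hasDerivAt_const u (v, y)))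

theorem der_v (h : ContDiff ℝ ∞ Φ) (u v : ℝ) (y : ℝ × ℝ) :
    HasDerivAt (fun s => Φ (u, s, y)) (D dv Φ (u, v, y)) v :=
  (dif h.contDiffAt).hasFDerivAt.comp_hasDerivAt v
    ((hasDerivAt_const v u).prodMk ((hasDerivAt_id v).prodMk (hasDerivAt_const v y)))

theorem lipU (h : ContDiff ℝ ∞ Φ) {v : ℝ} {y : ℝ × ℝ} (hb : ∀ u, p0 < u → ‖D du Φ (u, v, y)‖ ≤ K)
    {u u' : ℝ} (hu : p0 < u) (hu' : p0 < u') : ‖Φ (u', v, y) - Φ (u, v, y)‖ ≤ K * |u' - u| :=
  (convex_Ioi p0).norm_image_sub_le_of_norm_hasDerivWithin_le (f := fun s => Φ (s, v, y))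
    (fun s _ => (der_u h s v y).hasDerivWithinAt) hb hu hu'

theorem lipV (h : ContDiff ℝ ∞ Φ) (hP : Pr k P) {u v v' : ℝ} {y : ℝ × ℝ}
    (hb : ∀ s, v ≤ s → ‖D dv Φ (u, s, y)‖ ≤ K * k s) (hv : v ≤ v') :
    ‖Φ (u, v', y) - Φ (u, v, y)‖ ≤ K * (P v' - P v) :=
  image_norm_le_of_norm_deriv_right_le_deriv_boundary (a := v) (b := v')
    (f := fun s => Φ (u, s, y) - Φ (u, v, y)) (f' := fun s => D dv Φ (u, s, y))
    (B := fun s => K * (P s - P v)) (B' := fun s => K * k s)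
    (fun s _ => ((der_v h u s y).sub_const _).continuousAt.continuousWithinAt)
    (fun s _ => ((der_v h u s y).sub_const _).hasDerivWithinAt) (by simp)
    (fun s => ((hP.der s).sub_const _).const_mul _) (fun s hs => hb s hs.1) ⟨hv, le_rfl⟩

theorem lipY (hΦ : ContDiff ℝ ∞ Φ) (hY : ContDiff ℝ ∞ Y) (hr : ∀ x, sh Φ (sh Y x) = x) (hK : 0 ≤ K)
    {u v : ℝ} (hb : ∀ y, ∀ a : R4, cu a = 0 → cv a = 0 → ‖a‖ ≤ K * ‖fderiv ℝ (sh Φ) (u, v, y) a‖)
    (θ θ' : ℝ × ℝ) : ‖sh Y (u, v, θ') - sh Y (u, v, θ)‖ ≤ K * ‖θ' - θ‖ := by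
  have hd : ∀ z, DifferentiableAt ℝ (sh Y) z := fun z => dif (sh_sm hY.contDiffAt)
  refine convex_univ.norm_image_sub_le_of_norm_hasFDerivWithin_le (𝕜 := ℝ)
    (f := fun s => sh Y (u, v, s)) (fun s _ => ((hd _).hasFDerivAt.comp s
      ((hasFDerivAt_const u s).prodMk ((hasFDerivAt_const v s).prodMk
        (hasFDerivAt_id s)))).hasFDerivWithinAt) (fun s _ => ?_) (mem_univ _) (mem_univ _)
  refine ContinuousLinearMap.opNorm_le_bound _ hK fun a => ?_
  have e1 := D_comp (f := sh Φ) (T := sh Y) (x := (u, v, s)) (0, 0, a)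
    (dif (sh_sm hΦ.contDiffAt)) (hd _)
  rw [funext hr] at e1
  have e2 : fderiv ℝ (sh Φ) (sh Y (u, v, s)) (fderiv ℝ (sh Y) (u, v, s) (0, 0, a)) = (0, 0, a) := by
    simpa [D] using e1.symm
  have e3 := fderiv_sh (dif (hY.contDiffAt (x := (u, v, s)))) ((0, 0, a) : R4)
  have e4 := hb (s + Y (u, v, s)) (fderiv ℝ (sh Y) (u, v, s) (0, 0, a)) (by rw [e3]; rfl)
    (by rw [e3]; rfl)
  have e5 : ‖((0, 0, a) : R4)‖ = ‖a‖ := by simp [Prod.norm_def]
  exact e4.trans (le_of_eq (congrArg (K * ·) ((congrArg norm e2).trans e5)))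

theorem det_bd (R : ℝ) : ∃ c : ℝ, ∀ A : R4 →L[ℝ] R4, ‖A‖ ≤ R → |A.det| ≤ c := by
  obtain ⟨c, hc⟩ := (isCompact_closedBall (0 : R4 →L[ℝ] R4) R).exists_bound_of_continuousOn
    ContinuousLinearMap.continuous_det.continuousOn
  exact ⟨c, fun A hA => hc A (mem_closedBall_zero_iff.2 hA)⟩

theorem norm_sh (h : ContDiff ℝ ∞ Φ) {x : R4} {c : ℝ} (hc : 0 ≤ c)
    (hb : ∀ a, ‖fderiv ℝ Φ x a‖ ≤ c * ‖a‖) : ‖fderiv ℝ (sh Φ) x‖ ≤ 1 + c := by
  refine ContinuousLinearMap.opNorm_le_bound _ (by linarith) fun a => ?_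
  have e : fderiv ℝ (sh Φ) x a = a + (0, 0, fderiv ℝ Φ x a) := by
    rw [fderiv_sh (dif h.contDiffAt)]
    ext <;> simp [D]
  have e5 : ‖((0, 0, fderiv ℝ Φ x a) : R4)‖ = ‖fderiv ℝ Φ x a‖ := by simp [Prod.norm_def]
  rw [e, add_mul, one_mul]
  exact norm_add_le_of_le le_rfl (e5.le.trans (hb a))

theorem haar4 : Measure.IsAddHaarMeasure (volume : Measure R4) := by
  have h2 : (volume : Measure (ℝ × ℝ)).IsAddHaarMeasure :=
    Measure.prod.instIsAddHaarMeasure volume volume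
  have h3 : (volume : Measure (ℝ × ℝ × ℝ)).IsAddHaarMeasure :=
    Measure.prod.instIsAddHaarMeasure volume volume
  exact Measure.prod.instIsAddHaarMeasure volume volume

theorem img (h : ContDiff ℝ ∞ Φ) {c : ℝ} {E : Set R4} (hE : MeasurableSet E)
    (hb : ∀ x ∈ E, |(fderiv ℝ (sh Φ) x).det| ≤ c) :
    volume (sh Φ '' E) ≤ ENNReal.ofReal c * volume E := by
  have := haar4
  refine (addHaar_image_le_lintegral_abs_det_fderiv volume hE
    fun x _ => (dif (sh_sm h.contDiffAt)).hasFDerivAt.hasFDerivWithinAt).trans ?_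
  rw [← setLIntegral_const]
  exact setLIntegral_mono' hE fun x hx => ENNReal.ofReal_le_ofReal (hb x hx)

theorem meas : MEAS := by
  intro c K p0 q0 Θ F Φ Y k P hF hP hΦ hY hl hr hk hb p r y r0 hp hc h0
  have := haar4
  have hp0 : p0 < p := by linarith
  have hK : 0 ≤ K := (norm_nonneg _).trans (hb (p, q0 + 1, y) hp0 (lt_add_one q0)).1
  -- the sets of lines
  set B : Set R4 := {x | |cu x - p| < r ∧ cv x ∈ Ioo 0 1 ∧ ‖x.2.2 - y‖ < r} with hB
  have oB : IsOpen B := by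
    exact (isOpen_lt (show Continuous fun x : R4 => |x.1 - p| by fun_prop) continuous_const).inter
      ((isOpen_Ioo.preimage (show Continuous fun x : R4 => x.2.1 by fun_prop)).inter
        (isOpen_lt (show Continuous fun x : R4 => ‖x.2.2 - y‖ by fun_prop) continuous_const))
  have fB : volume B ≠ ⊤ := by
    refine ((Metric.isBounded_closedBall (x := ((p, 0, y) : R4)) (r := r + 1)).subset
      fun x hx => ?_).measure_lt_top.ne
    rw [mem_closedBall_iff_norm, Prod.norm_def, Prod.norm_def]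
    obtain ⟨h1, ⟨h2, h3⟩, h4⟩ := hx
    refine max_le (h1.le.trans (by linarith)) (max_le ?_ (h4.le.trans (by linarith)))
    show |cv x - 0| ≤ _
    rw [sub_zero, abs_of_pos h2]
    linarith
  set S : ℕ → Set R4 := fun n => {x | x ∈ B ∧ ∃ q : ℝ, (n : ℝ) ≤ q ∧ q0 < q ∧
    Real.exp (-(c * q)) < F (sh Φ (cu x, q, x.2.2))} with hS
  have oS : ∀ n, IsOpen (S n) := by
    intro n
    rw [isOpen_iff_mem_nhds]
    rintro x ⟨hx, q, h1, h2, h3⟩
    have hT : Continuous (sh Φ) := (contDiff_iff_contDiffAt.2 fun _ =>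
      sh_sm hΦ.contDiffAt).continuous
    have h4 : ContinuousAt (fun z : R4 => F (sh Φ (cu z, q, z.2.2))) x :=
      ContinuousAt.comp (f := fun z : R4 => sh Φ (cu z, q, z.2.2))
        (hc (cu x, q, x.2.2) hx.1 h2 hx.2.2).2 (hT.comp (by unfold cu; fun_prop)).continuousAt
    filter_upwards [oB.mem_nhds hx, h4.eventually_const_lt h3] with z a1 a2
    exact ⟨a1, q, h1, h2, a2⟩
  have lim : Tendsto (fun n => volume (S n)) atTop (𝓝 0) := by
    have h1 := tendsto_measure_iInter_atTop (μ := volume) (s := S)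
      (fun n => (oS n).measurableSet.nullMeasurableSet)
      (fun n m hnm x hx => ⟨hx.1, hx.2.imp fun q hq => ⟨(Nat.cast_le.2 hnm).trans hq.1, hq.2⟩⟩)
      ⟨0, ne_top_of_le_ne_top fB (measure_mono fun x hx => hx.1)⟩
    rwa [measure_mono_null (fun x hx => ?_) h0] at h1
    rw [mem_iInter] at hx
    refine ⟨(hx 0).1.1, (hx 0).1.2.1, (hx 0).1.2.2, fun he => ?_⟩
    obtain ⟨t, ht⟩ := eventually_atTop.1 he
    obtain ⟨q, a1, -, a2⟩ := (hx ⌈t⌉₊).2
    exact absurd (ht q ((Nat.le_ceil t).trans a1)) (not_le.2 a2)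
  -- the constants
  obtain ⟨q3, hq3, hq4⟩ : ∃ q3, q0 < q3 ∧ K * (K * -P q3) < r / 2 := by
    have h1 : Tendsto (fun q => K * (K * -P q)) atTop (𝓝 (K * (K * -0))) :=
      (hP.lim.neg.const_mul K).const_mul K
    exact ((eventually_gt_atTop q0).and (h1.eventually_lt_const (by simpa using r0))).exists
  obtain ⟨ρ, ρ0, ρ1, ρ2⟩ : ∃ ρ > 0, ρ ≤ r ∧ K * (ρ + K * ρ) ≤ r / 2 := by
    have h1 : 0 < 2 * (1 + K * (1 + K)) := by positivity
    refine ⟨r / (2 * (1 + K * (1 + K))), div_pos r0 h1, div_le_self r0.le ?_, ?_⟩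
    · nlinarith [mul_nonneg hK hK]
    · rw [show K * (r / (2 * (1 + K * (1 + K))) + K * (r / (2 * (1 + K * (1 + K))))) =
        r / 2 * (K * (1 + K) / (1 + K * (1 + K))) by field_simp]
      exact mul_le_of_le_one_right (half_pos r0).le ((div_le_one (by positivity)).2 (by linarith))
  obtain ⟨η, η0, hη⟩ := hF p _ (hc (p, q3, y) (by simpa [cu] using r0) hq3 (by simpa using r0)).1
    ρ ρ0
  obtain ⟨dd, hdd⟩ := det_bd (1 + (K + K * K + K + K))
  have lim2 : Tendsto (fun n => ENNReal.ofReal dd * volume (S n)) atTop (𝓝 0) := by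
    simpa using ENNReal.Tendsto.const_mul lim (Or.inr ENNReal.ofReal_ne_top)
  obtain ⟨n, hn⟩ := (lim2.eventually_lt_const η0).exists
  obtain ⟨t, ht, ht2⟩ := hη (max n q3)
  have t1 : (n : ℝ) ≤ t := (le_max_left _ _).trans ht
  have t2 : q3 ≤ t := (le_max_right _ _).trans ht
  refine absurd (ht2.trans ?_) (not_le.2 hn)
  set E : Set R4 := (fun x => x + (0, -t, 0)) ⁻¹' S n with hE
  have mE : MeasurableSet E := ((oS n).preimage (by fun_prop)).measurableSet
  rw [← measure_preimage_add_right volume ((0, -t, 0) : R4) (S n)]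
  refine (measure_mono (t := sh Φ '' E) fun z hz => ?_).trans (img hΦ mE fun x hx => hdd _ ?_)
  · obtain ⟨z1, ⟨z2, z3⟩, z4, z5⟩ := hz
    obtain ⟨u, v, θ⟩ := z
    simp only [cu, cv] at z1 z2 z3 z4 z5
    have u0 : p0 < u := by linarith [(abs_lt.1 z1).1]
    have v0 : q0 < v := by linarith
    refine ⟨sh Y (u, v, θ), ⟨⟨?_, ⟨?_, ?_⟩, ?_⟩, v, by linarith, v0, ?_⟩, hr _⟩
    · simpa [cu, sh] using z1.trans_le ρ1
    · simpa [cv, sh] using z2
    · simp only [cv, sh, Prod.snd_add, Prod.fst_add]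
      linarith
    · have a1 := lipY hΦ hY hr hK (u := u) (v := v) (fun y => (hb (u, v, y) u0 v0).2.2.2.2)
        (y + Φ (u, v, y)) θ
      have a2 : sh Y (u, v, y + Φ (u, v, y)) = (u, v, y) := hl (u, v, y)
      rw [a2] at a1
      have a3 := lipU hΦ (v := v) (y := y) (fun s hs => (hb (s, v, y) hs v0).1) u0 hp0
      have a4 := lipV hΦ hP (u := p) (y := y) (v := q3) (v' := v)
        (fun s hs => (hb (p, s, y) hp0 (hq3.trans_le hs)).2.1) (by linarith)
      have a5 : ‖θ - (y + Φ (u, v, y))‖ ≤ ρ + K * ρ + K * -P q3 := by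
        rw [show θ - (y + Φ (u, v, y)) = θ - (y + Φ (p, q3, y)) + (Φ (p, v, y) - Φ (u, v, y)) -
          (Φ (p, v, y) - Φ (p, q3, y)) by abel]
        refine (norm_sub_le _ _).trans (add_le_add (norm_add_le_of_le z4.le (a3.trans ?_))
          (a4.trans ?_))
        · exact mul_le_mul_of_nonneg_left (by rw [abs_sub_comm]; exact z1.le) hK
        · exact mul_le_mul_of_nonneg_left (by linarith [hP.neg v]) hK
      have a6 : ‖(sh Y (u, v, θ) + (0, -t, 0)).2.2 - y‖ ≤ ‖sh Y (u, v, θ) - (u, v, y)‖ := by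
        refine le_trans (le_of_eq ?_) ((norm_snd_le _).trans (norm_snd_le _))
        simp
      have a7 := mul_le_mul_of_nonneg_left a5 hK
      rw [mul_add] at a7
      linarith
    · have a1 : sh Φ (cu (sh Y (u, v, θ) + (0, -t, 0)), v, (sh Y (u, v, θ) + (0, -t, 0)).2.2) =
          (u, v, θ) := by
        refine Eq.trans (congrArg (sh Φ) ?_) (hr (u, v, θ))
        simp [cu, sh]
      rw [a1]
      exact z5
  · obtain ⟨⟨x1, ⟨x2, -⟩, -⟩, -⟩ := hx
    have u0 : p0 < cu x := by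
      simp only [cu, Prod.fst_add, add_zero] at x1 ⊢
      linarith [(abs_lt.1 x1).1]
    have v0 : q0 < cv x := by
      simp only [cv, Prod.fst_add, Prod.snd_add] at x2 ⊢
      linarith
    obtain ⟨b1, b2, b3, b4, -⟩ := hb x u0 v0
    exact norm_sh hΦ (by positivity) fun a => norm_fderiv_le (.inr b1)
      (.inr (b2.trans (mul_le_mul_of_nonneg_left (hk _ v0) hK))) b3 b4

end Vale.Agent.P354LM
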